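import Claimed.Agent.R255.Cl.Dich.Rep.Lab

/-!
# Row 255 (BR paper), package DC-REP, file 7: the common coarsening is determined by either label      (helper129; prefix `dcr_`)
-/

set_option autoImplicit false

namespace Claimed.Agent.R255

open Classical
open FLaw

/-- `H(D_c | G) ≤ log N + C` for every label `G` of shape `(b, a)` whose frame agrees with the frame of `D₁` at the depth of the tag -/
theorem dcr_c_det (K : ℝ) : ∃ C : ℝ, ∀ (S : CSys) (ε r L b a ξ : ℝ) (N : ℕ) (D₁ D₂ G : S.Ω → LV),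
    0 < ε → ε < 1 → 0 ≤ r → b ≤ a → 0 < ξ → ThN D₁ → ThN G → S.IsLabel K ε r L G (rd b a) →
    (∀ ω, dcrTag ε (a - b) ξ (D₁ ω) (D₂ ω) < N) →
    (∀ ω, |Real.sin ((D₁ ω).1.th - (G ω).1.th)| ≤ ε ^ ((dcrTag ε (a - b) ξ (D₁ ω) (D₂ ω) : ℝ) * ξ)) →
    S.P.entC (dcrDc S ε b (a - b) r ξ D₁ D₂) G ≤ Real.log N + C := by
  obtain ⟨C₀, hC₀⟩ := tl_loc_J_det (max K 2)
  refine ⟨C₀ + Real.log 27, ?_⟩
  intro S ε r L b a ξ N D₁ D₂ G h0 h1 hr hba hξ hT1 hTG HG hN hang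
  have he : 0 ≤ a - b := by linarith
  refine dcr_tagged S.P (fun ω => dcrTag ε (a - b) ξ (D₁ ω) (D₂ ω))
    (fun k => S.J ε ⟨b, (k : ℝ) * ξ, r⟩ (fun ω' => (D₁ ω').1.th)) G N _ (fun ω _ => hN ω) ?_
  intro ω₀ hω₀
  set tag : S.Ω → ℕ := fun ω => dcrTag ε (a - b) ξ (D₁ ω) (D₂ ω) with htag
  set k : ℕ := tag ω₀ with hk
  have hkd : 0 ≤ (k : ℝ) * ξ := by positivity
  have hke : (k : ℝ) * ξ ≤ a - b :=
    (dcr_tag_le ε (a - b) ξ (D₁ ω₀) (D₂ ω₀) h0 h1 he hξ).1.trans (dcr_sepd_mem ε (a - b) _ h0 h1 he).2.1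
  have hεk : 0 < ε ^ ((k : ℝ) * ξ) := Real.rpow_pos_of_pos h0 _
  have hsupp : ∀ ω, 0 < (S.P.cfib tag ω₀).p ω → tag ω = k ∧ 0 < S.P.p ω := by
    intro ω hω
    have := (dcr_cfib_supp S.P tag hω₀).1 hω.ne'
    exact ⟨this.1, lt_of_le_of_ne (S.P.nonneg ω) (Ne.symm this.2)⟩
  have hlab : (S.withLaw (S.P.cfib tag ω₀)).IsLabel (max K 2) ε r L G (rd b a) := by
    intro ω hω
    exact dcr_compat_mono _ K _ ε r L _ _ _ h0 (le_max_left _ _) (HG ω (hsupp ω hω).2)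
  have hangk : ∀ ω, 0 < (S.P.cfib tag ω₀).p ω →
      |Real.sin ((D₁ ω).1.th - (G ω).1.th)| ≤ ε ^ ((k : ℝ) * ξ) := by
    intro ω hω
    have := hang ω
    have e : dcrTag ε (a - b) ξ (D₁ ω) (D₂ ω) = k := (hsupp ω hω).1
    rwa [e] at this
  have hmain := hC₀ (S.withLaw (S.P.cfib tag ω₀)) ε r L b a ⟨b, (k : ℝ) * ξ, r⟩ (fun ω' => (D₁ ω').1.th)
    LV G (rd b a) h0 h1 hlab (fun _ => ⟨rfl, rfl⟩) rfl hkd hke hr (le_refl r) (by
      intro ω hω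
      have e : ((rd b a (G ω)).th - trep ε ((k : ℝ) * ξ) (D₁ ω).1.th)
          = ((G ω).1.th - (D₁ ω).1.th) + ((D₁ ω).1.th - trep ε ((k : ℝ) * ξ) (D₁ ω).1.th) := by
        show (G ω).1.th - _ = _
        ring
      show |Real.sin ((rd b a (G ω)).th - trep ε ((k : ℝ) * ξ) (D₁ ω).1.th)| ≤ max K 2 * ε ^ ((k : ℝ) * ξ)
      rw [e]
      have s1 : |Real.sin ((G ω).1.th - (D₁ ω).1.th)| ≤ ε ^ ((k : ℝ) * ξ) := by
        have : (G ω).1.th - (D₁ ω).1.th = -((D₁ ω).1.th - (G ω).1.th) := by ring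
        rw [this, Real.sin_neg, abs_neg]
        exact hangk ω hω
      have s2 := dcr_sin_trep ε ((k : ℝ) * ξ) (D₁ ω).1.th h0
      calc _ ≤ _ := dcr_abs_sin_add _ _
        _ ≤ 2 * ε ^ ((k : ℝ) * ξ) := by linarith
        _ ≤ max K 2 * ε ^ ((k : ℝ) * ξ) := mul_le_mul_of_nonneg_right (le_max_right _ _) hεk.le)
  have hcell : (S.P.cfib tag ω₀).entC (fun ω => tcell ε ((k : ℝ) * ξ) (D₁ ω).1.th) G ≤ Real.log 27 := by
    refine ent_entC_le_log_nval _ _ _ ?_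
    intro ω₁
    obtain ⟨F, hF1, hF2⟩ := dcr_cells ε ((k : ℝ) * ξ) (G ω₁).1.th h0 h1 hkd
    refine ⟨F, hF1, fun ω hω _ hG => ?_⟩
    have hpos : 0 < (S.P.cfib tag ω₀).p ω := lt_of_le_of_ne ((S.P.cfib tag ω₀).nonneg ω) (Ne.symm hω)
    refine hF2 _ (hT1 ω).1 (hT1 ω).2 (hTG ω₁).1 (hTG ω₁).2 ?_
    rw [← hG]
    exact hangk ω hpos
  exact hmain.trans (add_le_add_right hcell C₀)

end Claimed.Agent.R255
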