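import Claimed.Agent.R255.Cl.Dich.Rep.Sep
import Claimed.Agent.R255.Iso.Grid

/-!
# Row 255 (BR paper), package DC-REP, file 5: angles and angular cells      (helper129; prefix `dcr_`)
-/

set_option autoImplicit false

namespace Claimed.Agent.R255

open Classical

theorem dcr_abs_sin_add (x y : ℝ) : |Real.sin (x + y)| ≤ |Real.sin x| + |Real.sin y| := by
  rw [Real.sin_add]
  calc |Real.sin x * Real.cos y + Real.cos x * Real.sin y|
      ≤ |Real.sin x * Real.cos y| + |Real.cos x * Real.sin y| := abs_add_le _ _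
    _ = |Real.sin x| * |Real.cos y| + |Real.cos x| * |Real.sin y| := by rw [abs_mul, abs_mul]
    _ ≤ |Real.sin x| * 1 + 1 * |Real.sin y| :=
        add_le_add (mul_le_mul_of_nonneg_left (Real.abs_cos_le_one y) (abs_nonneg _))
          (mul_le_mul_of_nonneg_right (Real.abs_cos_le_one x) (abs_nonneg _))
    _ = |Real.sin x| + |Real.sin y| := by ring

theorem dcr_sin_trep (ε d th : ℝ) (h0 : 0 < ε) : |Real.sin (th - trep ε d th)| ≤ ε ^ d := by
  have h1 := ig_trep_le ε d th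
  have h2 := ig_lt_trep ε d th
  have h3 := ig_msh_le ε d h0
  calc |Real.sin (th - trep ε d th)| ≤ |th - trep ε d th| := Real.abs_sin_le_abs
    _ = th - trep ε d th := abs_of_nonneg (by linarith)
    _ ≤ ε ^ d := by linarith

/-- an angle in `(-π, π)` with small sine is close to `0` or `±π` -/
theorem dcr_angle_near (x δ : ℝ) (h1 : -Real.pi < x) (h2 : x < Real.pi) (h : |Real.sin x| ≤ δ) :
    |x| ≤ 2 * δ ∨ |x - Real.pi| ≤ 2 * δ ∨ |x + Real.pi| ≤ 2 * δ := by
  have hpi := Real.pi_pos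
  have hpi4 := Real.pi_le_four
  have hδ : 0 ≤ δ := (abs_nonneg _).trans h
  have habs : |x| ≤ Real.pi := abs_le.2 ⟨h1.le, h2.le⟩
  have hs : |Real.sin x| = Real.sin |x| := Real.abs_sin_eq_sin_abs_of_abs_le_pi habs
  have key : ∀ y : ℝ, 0 ≤ y → y ≤ Real.pi / 2 → Real.sin y ≤ δ → y ≤ 2 * δ := by
    intro y hy0 hy1 hy
    have h3 := Real.mul_le_sin hy0 hy1
    have h4 : 2 / Real.pi * y ≤ δ := h3.trans hy
    have h5 : y ≤ Real.pi / 2 * δ := by
      have : y = Real.pi / 2 * (2 / Real.pi * y) := by field_simp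
      rw [this]
      exact mul_le_mul_of_nonneg_left h4 (by positivity)
    nlinarith
  by_cases hc : |x| ≤ Real.pi / 2
  · left
    exact key _ (abs_nonneg x) hc (hs ▸ h)
  · push Not at hc
    have h6 : Real.pi - |x| ≤ 2 * δ := by
      refine key _ (by linarith) (by linarith) ?_
      rw [Real.sin_pi_sub]
      exact hs ▸ h
    right
    rcases le_total 0 x with hx | hx
    · left
      rw [abs_of_nonneg hx] at h6
      rw [abs_of_nonpos (by linarith)]
      linarith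
    · right
      rw [abs_of_nonpos hx] at h6
      rw [abs_of_nonneg (by linarith)]
      linarith

theorem dcr_floor_near (s y : ℝ) (h : |s - y| ≤ 4) : ⌊s⌋ ∈ Finset.Icc (⌊y⌋ - 4) (⌊y⌋ + 4) := by
  rw [abs_le] at h
  rw [Finset.mem_Icc]
  constructor
  · have : ⌊y - 4⌋ ≤ ⌊s⌋ := Int.floor_le_floor (by linarith)
    have e : ⌊y - 4⌋ = ⌊y⌋ - 4 := by simp
    linarith [e ▸ this]
  · have : ⌊s⌋ ≤ ⌊y + 4⌋ := Int.floor_le_floor (by linarith)
    have e : ⌊y + 4⌋ = ⌊y⌋ + 4 := by simp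
    linarith [e ▸ this]

/-- the angular cells of depth `d` compatible with a frame `th₂`: at most `27` -/
theorem dcr_cells (ε d th₂ : ℝ) (h0 : 0 < ε) (h1 : ε < 1) (hd : 0 ≤ d) :
    ∃ F : Finset ℤ, (F.card : ℝ) ≤ 27 ∧ ∀ th₁ : ℝ, 0 ≤ th₁ → th₁ < Real.pi → 0 ≤ th₂ → th₂ < Real.pi →
      |Real.sin (th₁ - th₂)| ≤ ε ^ d → tcell ε d th₁ ∈ F := by
  set n := tlev ε d with hn
  set I : ℝ → Finset ℤ := fun y => Finset.Icc (⌊y * 2 ^ n⌋ - 4) (⌊y * 2 ^ n⌋ + 4) with hI
  have hcard : ∀ y, (I y).card = 9 := by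
    intro y
    simp only [hI, Int.card_Icc]
    have : ⌊y * 2 ^ n⌋ + 4 + 1 - (⌊y * 2 ^ n⌋ - 4) = 9 := by ring
    rw [this]
    rfl
  refine ⟨I th₂ ∪ (I (th₂ + Real.pi) ∪ I (th₂ - Real.pi)), ?_, ?_⟩
  · have c1 := Finset.card_union_le (I th₂) (I (th₂ + Real.pi) ∪ I (th₂ - Real.pi))
    have c2 := Finset.card_union_le (I (th₂ + Real.pi)) (I (th₂ - Real.pi))
    rw [hcard] at c1 c2
    rw [hcard] at c2
    have : (I th₂ ∪ (I (th₂ + Real.pi) ∪ I (th₂ - Real.pi))).card ≤ 27 := by omega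
    exact_mod_cast this
  · intro th₁ a1 a2 b1 b2 hs
    have hm : ε ^ d ≤ 2 * msh ε d := ig_le_msh ε d h0 h1 hd
    have hpow : (0 : ℝ) < 2 ^ n := by positivity
    have hmsh : msh ε d * 2 ^ n = 1 := by
      unfold msh
      rw [← hn]
      field_simp
    have key : ∀ y : ℝ, |th₁ - y| ≤ 2 * ε ^ d → tcell ε d th₁ ∈ I y := by
      intro y hy
      unfold tcell
      rw [← hn]
      refine dcr_floor_near _ _ ?_
      have : th₁ * 2 ^ n - y * 2 ^ n = (th₁ - y) * 2 ^ n := by ring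
      rw [this, abs_mul, abs_of_pos hpow]
      calc |th₁ - y| * 2 ^ n ≤ (2 * (2 * msh ε d)) * 2 ^ n :=
            mul_le_mul_of_nonneg_right (hy.trans (by linarith)) hpow.le
        _ = 4 * (msh ε d * 2 ^ n) := by ring
        _ = 4 := by rw [hmsh]; ring
    rcases dcr_angle_near (th₁ - th₂) (ε ^ d) (by linarith) (by linarith) hs with h | h | h
    · exact Finset.mem_union_left _ (key _ h)
    · refine Finset.mem_union_right _ (Finset.mem_union_left _ (key _ ?_))
      have : th₁ - (th₂ + Real.pi) = th₁ - th₂ - Real.pi := by ring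
      rw [this]; exact h
    · refine Finset.mem_union_right _ (Finset.mem_union_right _ (key _ ?_))
      have : th₁ - (th₂ - Real.pi) = th₁ - th₂ + Real.pi := by ring
      rw [this]; exact h

end Claimed.Agent.R255
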