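import Claimed.Agent.R255.Cl.Dich.Rep.Sep

/-!
# Row 255 (BR paper), package DC-REP, file 3: the intersection read-out      (helper129; prefix `dcr_`)
-/

set_option autoImplicit false

namespace Claimed.Agent.R255

open Classical

theorem dcr_inRect_mono (K K' ε b a th : ℝ) (z : ℝ × ℝ) (h0 : 0 < ε) (hK : K ≤ K')
    (h : InRect K ε b a th z) : InRect K' ε b a th z :=
  ⟨h.1.trans (mul_le_mul_of_nonneg_right hK (Real.rpow_pos_of_pos h0 _).le),
    h.2.trans (mul_le_mul_of_nonneg_right hK (Real.rpow_pos_of_pos h0 _).le)⟩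

theorem dcr_compat_mono (g : Geo) (K K' ε t L : ℝ) (V A : ℝ × ℝ) (c : ℝ) (h0 : 0 < ε) (hK : K ≤ K')
    (h : g.Compat K ε t L V A c) : g.Compat K' ε t L V A c :=
  ⟨h.1, h.2.1, h.2.2.1, h.2.2.2.1.trans (mul_le_mul_of_nonneg_right hK (Real.rpow_pos_of_pos h0 _).le),
    dcr_inRect_mono K K' ε _ _ _ _ h0 hK h.2.2.2.2.1, dcr_inRect_mono K K' ε _ _ _ _ h0 hK h.2.2.2.2.2⟩

theorem dcr_ip_add_smul (z₁ z₂ u : ℝ × ℝ) (s : ℝ) : ip (z₁ + s • z₂) u = ip z₁ u + s * ip z₂ u := by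
  unfold ip
  simp only [Prod.fst_add, Prod.snd_add, Prod.smul_fst, Prod.smul_snd, smul_eq_mul]
  ring

/-- moving a read-out to another admissible time representative -/
theorem dcr_move (g : Geo) (K ε t L tc : ℝ) (V A : ℝ × ℝ) (c : ℝ) (h0 : 0 < ε)
    (h : g.Compat K ε t L V A c) (htc : |c - tc| ≤ K * ε ^ t) :
    ({ g with tc := tc, xc := g.xc + (tc - g.tc) • g.vc } : Geo).Compat (K + 2 * K ^ 2) ε t L V A c := by
  obtain ⟨hb, hba, haL, hc, hV, hX⟩ := h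
  have hεt : 0 < ε ^ t := Real.rpow_pos_of_pos h0 t
  have hK0 : 0 ≤ K := by
    by_contra hneg
    push Not at hneg
    have : K * ε ^ t < 0 := mul_neg_of_neg_of_pos hneg hεt
    linarith [abs_nonneg (c - tc)]
  have hKK : K ≤ K + 2 * K ^ 2 := by nlinarith [sq_nonneg K]
  have hs : |tc - g.tc| ≤ 2 * K * ε ^ t := by
    have : tc - g.tc = (c - g.tc) - (c - tc) := by ring
    rw [this]
    calc |(c - g.tc) - (c - tc)| ≤ |c - g.tc| + |c - tc| := abs_sub _ _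
      _ ≤ 2 * K * ε ^ t := by linarith
  have hz : A + tc • V - (g.xc + (tc - g.tc) • g.vc) = (A + g.tc • V - g.xc) + (tc - g.tc) • (V - g.vc) := by
    ext <;> simp only [Prod.fst_add, Prod.snd_add, Prod.fst_sub, Prod.snd_sub, Prod.smul_fst,
      Prod.smul_snd, smul_eq_mul] <;> ring
  have key : ∀ (u : ℝ × ℝ) (d : ℝ), |ip (A + g.tc • V - g.xc) u| ≤ K * ε ^ (d + t) →
      |ip (V - g.vc) u| ≤ K * ε ^ d →
      |ip (A + tc • V - (g.xc + (tc - g.tc) • g.vc)) u| ≤ (K + 2 * K ^ 2) * ε ^ (d + t) := by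
    intro u d h1 h2
    rw [hz, dcr_ip_add_smul]
    have hεd : 0 < ε ^ d := Real.rpow_pos_of_pos h0 d
    have h3 : |(tc - g.tc) * ip (V - g.vc) u| ≤ (2 * K * ε ^ t) * (K * ε ^ d) := by
      rw [abs_mul]
      exact mul_le_mul hs h2 (abs_nonneg _) (by positivity)
    calc |ip (A + g.tc • V - g.xc) u + (tc - g.tc) * ip (V - g.vc) u|
        ≤ |ip (A + g.tc • V - g.xc) u| + |(tc - g.tc) * ip (V - g.vc) u| := abs_add_le _ _
      _ ≤ K * ε ^ (d + t) + (2 * K * ε ^ t) * (K * ε ^ d) := add_le_add h1 h3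
      _ = (K + 2 * K ^ 2) * ε ^ (d + t) := by rw [Real.rpow_add h0]; ring
  refine ⟨hb, hba, haL, htc.trans (mul_le_mul_of_nonneg_right hKK hεt.le),
    dcr_inRect_mono K _ ε _ _ _ _ h0 hKK hV, ?_, ?_⟩
  · exact key _ _ hX.1 hV.1
  · exact key _ _ hX.2 hV.2

/-- the intersection read-out of two read-outs of the same shape `(b, a)`: shape `(a - v, a)` if the angular separation is `≥ ε^v`, or `v = a - b` -/
theorem dcr_inter (K ε t v : ℝ) (h0 : 0 < ε) (h1 : ε < 1) (g₁ g₂ : Geo) (hb : g₂.b = g₁.b)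
    (ha : g₂.a = g₁.a) (hv0 : 0 ≤ v) (hv : v ≤ g₁.a - g₁.b)
    (hs : ε ^ v ≤ |Real.sin (g₁.th - g₂.th)| ∨ v = g₁.a - g₁.b) :
    ∃ g : Geo, g.b = g₁.a - v ∧ g.a = g₁.a ∧
      ∀ (L : ℝ) (V A : ℝ × ℝ) (c : ℝ), g₁.Compat K ε t L V A c → g₂.Compat K ε t L V A c →
        g.Compat (2 * (K + 2 * K ^ 2)) ε t L V A c := by
  have hKK : K ≤ K + 2 * K ^ 2 := by nlinarith [sq_nonneg K]
  rcases hs with hs | hs
  · obtain ⟨g, hgb, hga, -, -, hg⟩ := tl_rect_inter (K + 2 * K ^ 2) ε t v h0 h1 g₁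
      ({ g₂ with tc := g₁.tc, xc := g₂.xc + (g₁.tc - g₂.tc) • g₂.vc } : Geo) hb ha rfl hv0 hv hs
    refine ⟨g, hgb, hga, fun L V A c H1 H2 => ?_⟩
    exact hg L V A c (dcr_compat_mono g₁ K _ ε t L V A c h0 hKK H1)
      (dcr_move g₂ K ε t L g₁.tc V A c h0 H2 H1.2.2.2.1)
  · refine ⟨g₁, by rw [hs]; ring, rfl, fun L V A c H1 _ => ?_⟩
    have hK0 : 0 ≤ K := by
      by_contra hneg
      push Not at hneg
      have : K * ε ^ t < 0 := mul_neg_of_neg_of_pos hneg (Real.rpow_pos_of_pos h0 t)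
      linarith [abs_nonneg (c - g₁.tc), H1.2.2.2.1]
    exact dcr_compat_mono g₁ K _ ε t L V A c h0 (by nlinarith [sq_nonneg K]) H1

end Claimed.Agent.R255
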