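import Claimed.Agent.R255.Cl.Dich.Ops

/-!
# Row 255 (BR paper), package DC-REP, file 1: the information inequality of Sec. 4.4      (helper129; prefix `dcr_`)
Pure entropy calculus: two submodularities and three monotonicities.
-/

set_option autoImplicit false

namespace Claimed.Agent.R255

open Classical
open FLaw

/-- `I(T;D₁,D₂) + I(T;D_c) ≤ I(T;D₁) + I(T;D₂) + H(D_c|D₁) + H(D_c|D₂) + I(D₁;D₂|T,C)` if `C` is a function of `D_c` -/
theorem dcr_info {Ω : Type} [Fintype Ω] (P : FLaw Ω) {τ κ α β δ : Type} (T : Ω → τ) (C : Ω → κ)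
    (D₁ : Ω → α) (D₂ : Ω → β) (Dc : Ω → δ) (hC : ∀ ω ω', Dc ω = Dc ω' → C ω = C ω') :
    P.mi T (pair D₁ D₂) + P.mi T Dc ≤
      P.mi T D₁ + P.mi T D₂ + P.entC Dc D₁ + P.entC Dc D₂ + P.miC D₁ D₂ (pair T C) := by
  unfold FLaw.mi FLaw.entC FLaw.miC
  -- (i) h(D₁D₂) + h(Dc) ≤ h(DcD₁) + h(DcD₂)
  have s1 := ent_submod P D₁ D₂ Dc
  have m1 : P.ent (pair D₁ D₂) ≤ P.ent (pair (pair D₁ D₂) Dc) := ent_le_pair_left P _ _
  have c1 : P.ent (pair Dc D₁) = P.ent (pair D₁ Dc) := ent_pair_comm P _ _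
  have c2 : P.ent (pair Dc D₂) = P.ent (pair D₂ Dc) := ent_pair_comm P _ _
  -- (ii)
  have m2 : P.ent (pair T C) ≤ P.ent (pair T Dc) := by
    refine ent_mono_ker P _ _ fun ω ω' _ _ h => ?_
    simp only [FLaw.pair, Prod.mk.injEq] at h ⊢
    exact ⟨h.1, hC _ _ h.2⟩
  have m3 : P.ent (pair T D₂) ≤ P.ent (pair D₂ (pair T C)) := by
    refine ent_mono_ker P _ _ fun ω ω' _ _ h => ?_
    simp only [FLaw.pair, Prod.mk.injEq] at h ⊢
    exact ⟨h.2.1, h.1⟩
  have s2 := ent_submod P D₂ C (pair T D₁)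
  have e1 : P.ent (pair (pair D₂ C) (pair T D₁)) = P.ent (pair (pair D₁ D₂) (pair T C)) := by
    refine ent_congr_ker P _ _ fun ω ω' _ _ => ?_
    simp only [FLaw.pair, Prod.mk.injEq]
    tauto
  have e2 : P.ent (pair D₂ (pair T D₁)) = P.ent (pair T (pair D₁ D₂)) := by
    refine ent_congr_ker P _ _ fun ω ω' _ _ => ?_
    simp only [FLaw.pair, Prod.mk.injEq]
    tauto
  have e3 : P.ent (pair C (pair T D₁)) = P.ent (pair D₁ (pair T C)) := by
    refine ent_congr_ker P _ _ fun ω ω' _ _ => ?_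
    simp only [FLaw.pair, Prod.mk.injEq]
    tauto
  linarith

end Claimed.Agent.R255
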