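import Claimed.Agent.R255.Cl.Dich.Rep.Info

/-!
# Row 255 (BR paper), package DC-REP, file 4: conditional entropy of a tagged family      (helper129; prefix `dcr_`)
-/

set_option autoImplicit false

namespace Claimed.Agent.R255

open Classical
open FLaw

theorem dcr_cfib_supp {Ω : Type} [Fintype Ω] (P : FLaw Ω) {κ : Type} (C : Ω → κ) {ω₀ : Ω}
    (h0 : P.p ω₀ ≠ 0) {ω : Ω} : (P.cfib C ω₀).p ω ≠ 0 ↔ C ω = C ω₀ ∧ P.p ω ≠ 0 :=
  ent_cnd_supp P _ (ent_fib_pos P C h0)

/-- `H((tag, X_tag) | G) ≤ log N + c` if `H(X_k | G) ≤ c` on every cell `tag = k` -/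
theorem dcr_tagged {Ω : Type} [Fintype Ω] (P : FLaw Ω) {α β : Type} (tag : Ω → ℕ) (X : ℕ → Ω → α)
    (G : Ω → β) (N : ℕ) (c : ℝ) (hN : ∀ ω, P.p ω ≠ 0 → tag ω < N)
    (h : ∀ ω₀, P.p ω₀ ≠ 0 → (P.cfib tag ω₀).entC (X (tag ω₀)) G ≤ c) :
    P.entC (fun ω => (tag ω, X (tag ω) ω)) G ≤ Real.log N + c := by
  have e0 : P.entC (fun ω => (tag ω, X (tag ω) ω)) G
      = P.entC tag G + P.entC (fun ω => X (tag ω) ω) (pair tag G) :=
    ent_entC_chain P tag (fun ω => X (tag ω) ω) G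
  have e1 : P.entC tag G ≤ Real.log N := by
    refine (ent_entC_le P tag G).trans ?_
    have := ent_le_log_card P tag (Finset.range N) fun ω hω => Finset.mem_range.2 (hN ω hω)
    rwa [Finset.card_range] at this
  have e2 : P.entC (fun ω => X (tag ω) ω) (pair tag G) = P.entC (fun ω => X (tag ω) ω) (pair G tag) := by
    refine ent_entC_congr P _ _ _ _ (fun ω ω' _ _ => ?_) (fun ω ω' _ _ _ => Iff.rfl)
    simp only [FLaw.pair, Prod.mk.injEq]
    exact and_comm
  have e3 : P.entC (fun ω => X (tag ω) ω) (pair G tag) ≤ c := by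
    rw [ent_entC_pair_eq_avg]
    calc P.ev (fun ω => (P.cfib tag ω).entC (fun ω => X (tag ω) ω) G) ≤ P.ev (fun _ => c) := by
          refine ent_ev_mono P fun ω₀ hω₀ => ?_
          have : (P.cfib tag ω₀).entC (fun ω => X (tag ω) ω) G = (P.cfib tag ω₀).entC (X (tag ω₀)) G := by
            refine ent_entC_congr _ _ _ _ _ (fun ω ω' _ _ => Iff.rfl) (fun ω ω' h1 h2 _ => ?_)
            rw [((dcr_cfib_supp P tag hω₀).1 h1).1, ((dcr_cfib_supp P tag hω₀).1 h2).1]
          rw [this]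
          exact h ω₀ hω₀
      _ = c := ent_ev_const P c
  linarith

end Claimed.Agent.R255
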