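import Claimed.Agent.R255.Cl.Dich.Rep.Geo
import Claimed.Agent.R255.Cl.Dich.Rep.Tag
import Claimed.Agent.R255.Cl.Dich.Rep.Ang

/-!
# Row 255 (BR paper), package DC-REP, file 6: the intersection label and the common coarsening      (helper129; prefix `dcr_`)
-/

set_option autoImplicit false

namespace Claimed.Agent.R255

open Classical
open FLaw

/-- the mesh tag of the separation depth of two label values -/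
noncomputable def dcrTag (ε e ξ : ℝ) (g₁ g₂ : LV) : ℕ := ⌊sepd ε e (g₁.1.th - g₂.1.th) / ξ⌋₊

/-- the safe upper end point of the bin -/
noncomputable def dcrVp (ε e ξ : ℝ) (g₁ g₂ : LV) : ℝ := min e ((dcrTag ε e ξ g₁ g₂ : ℝ) * ξ + ξ)

/-- the common coarsening `D_c = (tag, J_(b, tag ξ, r))` in the frame of the first label -/
noncomputable def dcrDc (S : CSys) (ε b e r ξ : ℝ) (D₁ D₂ : S.Ω → LV) :
    S.Ω → ℕ × (ℤ × ℤ × ℤ × ℤ × ℤ × ℤ) :=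
  fun ω => (dcrTag ε e ξ (D₁ ω) (D₂ ω),
    S.J ε ⟨b, (dcrTag ε e ξ (D₁ ω) (D₂ ω) : ℝ) * ξ, r⟩ (fun ω' => (D₁ ω').1.th) ω)

theorem dcr_tag_le (ε e ξ : ℝ) (g₁ g₂ : LV) (h0 : 0 < ε) (h1 : ε < 1) (he : 0 ≤ e) (hξ : 0 < ξ) :
    (dcrTag ε e ξ g₁ g₂ : ℝ) * ξ ≤ sepd ε e (g₁.1.th - g₂.1.th) ∧
      sepd ε e (g₁.1.th - g₂.1.th) < (dcrTag ε e ξ g₁ g₂ : ℝ) * ξ + ξ := by
  have hv := (dcr_sepd_mem ε e (g₁.1.th - g₂.1.th) h0 h1 he).1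
  unfold dcrTag
  constructor
  · have := Nat.floor_le (div_nonneg hv hξ.le)
    rwa [le_div_iff₀ hξ] at this
  · have := Nat.lt_floor_add_one (sepd ε e (g₁.1.th - g₂.1.th) / ξ)
    rw [div_lt_iff₀ hξ] at this
    linarith

theorem dcr_tag_lt (ε e ξ Lmax : ℝ) (g₁ g₂ : LV) (h0 : 0 < ε) (h1 : ε < 1) (he : 0 ≤ e) (hξ : 0 < ξ)
    (hL : e ≤ Lmax) : dcrTag ε e ξ g₁ g₂ < ⌊Lmax / ξ⌋₊ + 1 := by
  have hv := (dcr_sepd_mem ε e (g₁.1.th - g₂.1.th) h0 h1 he).2.1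
  unfold dcrTag
  exact Nat.lt_succ_of_le (Nat.floor_le_floor (div_le_div_of_nonneg_right (hv.trans hL) hξ.le))

theorem dcr_vp_mem (ε e ξ : ℝ) (g₁ g₂ : LV) (h0 : 0 < ε) (h1 : ε < 1) (he : 0 ≤ e) (hξ : 0 < ξ) :
    0 ≤ dcrVp ε e ξ g₁ g₂ ∧ dcrVp ε e ξ g₁ g₂ ≤ e ∧
      (ε ^ dcrVp ε e ξ g₁ g₂ ≤ |Real.sin (g₁.1.th - g₂.1.th)| ∨ dcrVp ε e ξ g₁ g₂ = e) := by
  obtain ⟨t1, t2⟩ := dcr_tag_le ε e ξ g₁ g₂ h0 h1 he hξ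
  obtain ⟨v0, v1, -⟩ := dcr_sepd_mem ε e (g₁.1.th - g₂.1.th) h0 h1 he
  unfold dcrVp
  refine ⟨le_min he (by positivity), min_le_left _ _, ?_⟩
  rcases lt_or_eq_of_le v1 with hlt | heq
  · left
    rw [dcr_sepd_lt ε e _ h0 h1 hlt]
    exact Real.rpow_le_rpow_of_exponent_ge h0 h1.le (le_min hlt.le t2.le)
  · right
    exact min_eq_left (by linarith)

/-- the intersection label `D_i = (D₁, D₂)`, shape `(a - v⁺, a)` -/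
theorem dcr_i_label (S : CSys) (K ε r L b a ξ : ℝ) (D₁ D₂ : S.Ω → LV) (h0 : 0 < ε) (h1 : ε < 1)
    (hba : b ≤ a) (hξ : 0 < ξ) (H₁ : S.IsLabel K ε r L D₁ (rd b a)) (H₂ : S.IsLabel K ε r L D₂ (rd b a)) :
    ∃ geoI : LV × LV → Geo,
      (∀ x, (geoI x).b = a - dcrVp ε (a - b) ξ x.1 x.2 ∧ (geoI x).a = a) ∧
      S.IsLabel (2 * (K + 2 * K ^ 2)) ε r L (pair D₁ D₂) geoI := by
  have he : 0 ≤ a - b := by linarith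
  have hex : ∀ x : LV × LV, ∃ g : Geo, g.b = a - dcrVp ε (a - b) ξ x.1 x.2 ∧ g.a = a ∧
      ∀ (L : ℝ) (V A : ℝ × ℝ) (c : ℝ), (rd b a x.1).Compat K ε r L V A c →
        (rd b a x.2).Compat K ε r L V A c → g.Compat (2 * (K + 2 * K ^ 2)) ε r L V A c := by
    intro x
    obtain ⟨p0, p1, p2⟩ := dcr_vp_mem ε (a - b) ξ x.1 x.2 h0 h1 he hξ
    exact dcr_inter K ε r (dcrVp ε (a - b) ξ x.1 x.2) h0 h1 (rd b a x.1) (rd b a x.2) rfl rfl p0 p1 p2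
  choose geoI hI using hex
  exact ⟨geoI, fun x => ⟨(hI x).1, (hI x).2.1⟩, fun ω hω => (hI (D₁ ω, D₂ ω)).2.2 L _ _ _ (H₁ ω hω) (H₂ ω hω)⟩

/-- the common coarsening is a label of shape `(b, b + tag ξ)` -/
theorem dcr_c_label (S : CSys) (ε r L b a ξ : ℝ) (D₁ D₂ : S.Ω → LV) (h0 : 0 < ε) (h1 : ε < 1)
    (hb : 0 ≤ b) (hba : b ≤ a) (hr : 0 ≤ r) (haL : a + r ≤ L) (hξ : 0 < ξ) :
    ∃ geoC : ℕ × (ℤ × ℤ × ℤ × ℤ × ℤ × ℤ) → Geo,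
      (∀ x, (geoC x).b = b ∧ (geoC x).a = b + (x.1 : ℝ) * ξ) ∧
      S.IsLabel 1 ε r L (dcrDc S ε b (a - b) r ξ D₁ D₂) geoC := by
  have he : 0 ≤ a - b := by linarith
  have hex : ∀ k : ℕ, ∃ geoJ : ℤ × ℤ × ℤ × ℤ × ℤ × ℤ → Geo,
      (∀ j, (geoJ j).b = b ∧ (geoJ j).a = b + (k : ℝ) * ξ) ∧
      ((k : ℝ) * ξ ≤ a - b → S.IsLabel 1 ε r L (S.J ε ⟨b, (k : ℝ) * ξ, r⟩ (fun ω' => (D₁ ω').1.th)) geoJ) := by
    intro k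
    by_cases hk : (k : ℝ) * ξ ≤ a - b
    · obtain ⟨geoJ, hJ1, hJ2⟩ := tl_loc_J_label S ε L ⟨b, (k : ℝ) * ξ, r⟩ (fun ω' => (D₁ ω').1.th) h0 h1 hb
        (by positivity) hr (by show b + (k : ℝ) * ξ + r ≤ L; linarith)
      exact ⟨geoJ, fun j => ⟨(hJ1 j).1, (hJ1 j).2.1⟩, fun _ => hJ2⟩
    · exact ⟨fun _ => ⟨b, b + (k : ℝ) * ξ, 0, 0, 0, 0⟩, fun _ => ⟨rfl, rfl⟩, fun h => absurd h hk⟩
  choose geoJ hJ using hex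
  refine ⟨fun x => geoJ x.1 x.2, fun x => (hJ x.1).1 x.2, fun ω hω => ?_⟩
  have hk : (dcrTag ε (a - b) ξ (D₁ ω) (D₂ ω) : ℝ) * ξ ≤ a - b :=
    (dcr_tag_le ε (a - b) ξ (D₁ ω) (D₂ ω) h0 h1 he hξ).1.trans
      (dcr_sepd_mem ε (a - b) _ h0 h1 he).2.1
  exact (hJ _).2 hk ω hω

end Claimed.Agent.R255
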