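import Claimed.Agent.R255.Cl.Dich.Ops

/-!
# Row 255 (BR paper), package DC-REP, file 2: the separation depth      (helper129; prefix `dcr_`)
-/

set_option autoImplicit false

namespace Claimed.Agent.R255

open Classical

theorem dcr_rpow_logdiv (ε x : ℝ) (h0 : 0 < ε) (h1 : ε < 1) (hx : 0 < x) :
    ε ^ (Real.log x / Real.log ε) = x := by
  have hl : Real.log ε ≠ 0 := (Real.log_neg h0 h1).ne
  rw [Real.rpow_def_of_pos h0, mul_div_cancel₀ _ hl, Real.exp_log hx]

theorem dcr_sepd_mem (ε e θ : ℝ) (h0 : 0 < ε) (h1 : ε < 1) (he : 0 ≤ e) :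
    0 ≤ sepd ε e θ ∧ sepd ε e θ ≤ e ∧ |Real.sin θ| ≤ ε ^ sepd ε e θ := by
  unfold sepd
  by_cases hs : Real.sin θ = 0
  · rw [if_pos hs, hs, abs_zero]
    exact ⟨he, le_refl _, (Real.rpow_pos_of_pos h0 e).le⟩
  · rw [if_neg hs]
    have hpos : 0 < |Real.sin θ| := abs_pos.2 hs
    have hx : 0 ≤ Real.log |Real.sin θ| / Real.log ε :=
      div_nonneg_of_nonpos (Real.log_nonpos hpos.le (Real.abs_sin_le_one θ)) (Real.log_neg h0 h1).le
    refine ⟨le_min he hx, min_le_left _ _, ?_⟩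
    calc |Real.sin θ| = ε ^ (Real.log |Real.sin θ| / Real.log ε) := (dcr_rpow_logdiv ε _ h0 h1 hpos).symm
      _ ≤ ε ^ (min e (Real.log |Real.sin θ| / Real.log ε)) :=
        Real.rpow_le_rpow_of_exponent_ge h0 h1.le (min_le_right _ _)

theorem dcr_sepd_lt (ε e θ : ℝ) (h0 : 0 < ε) (h1 : ε < 1) (h : sepd ε e θ < e) :
    |Real.sin θ| = ε ^ sepd ε e θ := by
  unfold sepd at h ⊢
  by_cases hs : Real.sin θ = 0
  · rw [if_pos hs] at h
    exact absurd h (lt_irrefl _)
  · rw [if_neg hs] at h ⊢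
    have hpos : 0 < |Real.sin θ| := abs_pos.2 hs
    have : min e (Real.log |Real.sin θ| / Real.log ε) = Real.log |Real.sin θ| / Real.log ε := by
      rcases le_total e (Real.log |Real.sin θ| / Real.log ε) with h2 | h2
      · rw [min_eq_left h2] at h
        exact absurd h (lt_irrefl _)
      · exact min_eq_right h2
    rw [this]
    exact (dcr_rpow_logdiv ε _ h0 h1 hpos).symm

theorem dcr_sepd_ge (ε e θ d : ℝ) (h0 : 0 < ε) (h1 : ε < 1) (hd : d ≤ e) (h : |Real.sin θ| ≤ ε ^ d) :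
    d ≤ sepd ε e θ := by
  unfold sepd
  by_cases hs : Real.sin θ = 0
  · rw [if_pos hs]
    exact hd
  · rw [if_neg hs]
    have hpos : 0 < |Real.sin θ| := abs_pos.2 hs
    refine le_min hd ?_
    rw [← dcr_rpow_logdiv ε _ h0 h1 hpos] at h
    exact (Real.rpow_le_rpow_left_iff_of_base_lt_one h0 h1).1 h

end Claimed.Agent.R255
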